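import Mathlib

/-! P339: 2-to-1 games with `q = 2`, and the trivial value. -/

namespace Vale.Agent.Results.P339.AlphabetTwo

/-- A 2-to-1 game with alphabets `[2q]`, `[q]`. -/
structure Game (U V E : Type) [Fintype E] (q : ℕ) where
  u : E → U
  v : E → V
  proj : E → Fin (2 * q) → Fin q
  two : ∀ e b, (Finset.univ.filter fun a => proj e a = b).card = 2
  wt : E → ℝ
  nonneg : ∀ e, 0 ≤ wt e
  total : ∑ e, wt e = 1

/-- the weight of the constraints satisfied by a labeling -/
noncomputable def Game.val {U V E : Type} [Fintype E] {q : ℕ} (G : Game U V E q)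
    (A : U → Fin (2 * q)) (B : V → Fin q) : ℝ :=
  ∑ e, if G.proj e (A (G.u e)) = B (G.v e) then G.wt e else 0

/-- the two bits of a label in `[4]`, and the bit of a label in `[2]` -/
def hi (a : Fin (2 * 2)) : ZMod 2 := ((a.val / 2 : ℕ) : ZMod 2)
def lo (a : Fin (2 * 2)) : ZMod 2 := ((a.val % 2 : ℕ) : ZMod 2)
def bit (b : Fin 2) : ZMod 2 := ((b.val : ℕ) : ZMod 2)

/-- the linear map of the system `α X + β Y + B = γ` -/
def sys {U V E : Type} (u : E → U) (v : E → V) (α β : E → ZMod 2) :
    ((U → ZMod 2) × (U → ZMod 2) × (V → ZMod 2)) →ₗ[ZMod 2] (E → ZMod 2) where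
  toFun x e := α e * x.1 (u e) + β e * x.2.1 (u e) + x.2.2 (v e)
  map_add' x y := by ext e; simp; ring
  map_smul' c x := by ext e; simp; ring

theorem affine : ∀ p : Fin (2 * 2) → Fin 2, (∀ b, (Finset.univ.filter fun a => p a = b).card = 2) →
    ∃ α β γ : ZMod 2, ∀ a, bit (p a) = α * hi a + β * lo a + γ := by
  decide +kernel

theorem bit_inj : ∀ b c : Fin 2, bit b = bit c → b = c := by decide

theorem bits : ∀ x y : ZMod 2, ∃ a : Fin (2 * 2), hi a = x ∧ lo a = y := by decide

theorem bit_surj : ∀ x : ZMod 2, ∃ b : Fin 2, bit b = x := by decide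

theorem two_eq (x y z : ZMod 2) : x + z = y ↔ x + y = z := by
  revert x y z; decide

/-- (1) For `q = 2` there are explicit coefficients such that the labelings that satisfy all
constraints are exactly the solutions of a linear system over `F_2`, and a labeling satisfying all
constraints exists iff the system is solvable. (2) Every 2-to-1 game has value at least `1 / q`. -/
theorem result {U V E : Type} [Fintype E] :
    (∀ G : Game U V E 2, ∃ α β γ : E → ZMod 2,
      (∀ e a, bit (G.proj e a) = α e * hi a + β e * lo a + γ e) ∧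
      (∀ (A : U → Fin (2 * 2)) (B : V → Fin 2),
        (∀ e, G.proj e (A (G.u e)) = B (G.v e)) ↔
          sys G.u G.v α β (fun w => hi (A w), fun w => lo (A w), fun w => bit (B w)) = γ) ∧
      ((∃ (A : U → Fin (2 * 2)) (B : V → Fin 2), ∀ e, G.proj e (A (G.u e)) = B (G.v e)) ↔
        γ ∈ LinearMap.range (sys G.u G.v α β))) ∧
    (∀ q : ℕ, 1 ≤ q → ∀ G : Game U V E q, ∃ (A : U → Fin (2 * q)) (B : V → Fin q), 1 / (q : ℝ) ≤ G.val A B) := by
  constructor
  · intro G
    choose α β γ h using fun e => affine (G.proj e) (G.two e)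
    have key : ∀ (A : U → Fin (2 * 2)) (B : V → Fin 2),
        (∀ e, G.proj e (A (G.u e)) = B (G.v e)) ↔
          sys G.u G.v α β (fun w => hi (A w), fun w => lo (A w), fun w => bit (B w)) = γ := by
      intro A B
      constructor
      · intro hs
        ext e
        have h1 := h e (A (G.u e))
        rw [hs e] at h1
        show α e * hi (A (G.u e)) + β e * lo (A (G.u e)) + bit (B (G.v e)) = γ e
        rw [two_eq]
        exact h1.symm
      · intro hs e
        apply bit_inj
        rw [h e]
        have h1 := congrFun hs e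
        have h2 : α e * hi (A (G.u e)) + β e * lo (A (G.u e)) + bit (B (G.v e)) = γ e := h1
        rw [two_eq] at h2
        exact h2
    refine ⟨α, β, γ, h, key, ?_⟩
    constructor
    · rintro ⟨A, B, hs⟩
      exact ⟨_, (key A B).1 hs⟩
    · rintro ⟨⟨X, Y, Z⟩, hx⟩
      choose A hA1 hA2 using fun w => bits (X w) (Y w)
      choose B hB using fun w => bit_surj (Z w)
      refine ⟨A, B, (key A B).2 ?_⟩
      rw [← hx]
      congr 1
      simp only [hA1, hA2, hB]
  · intro q hq G
    let A : U → Fin (2 * q) := fun _ => ⟨0, by omega⟩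
    have hsum : ∑ b : Fin q, G.val A (fun _ => b) = 1 := by
      unfold Game.val
      rw [Finset.sum_comm, ← G.total]
      refine Finset.sum_congr rfl fun e _ => ?_
      rw [Finset.sum_ite_eq]
      simp
    by_contra hcon
    push Not at hcon
    have hlt : ∑ b : Fin q, G.val A (fun _ => b) < ∑ _b : Fin q, 1 / (q : ℝ) := by
      apply Finset.sum_lt_sum_of_nonempty
      · exact ⟨⟨0, hq⟩, Finset.mem_univ _⟩
      · intro b _
        exact hcon A (fun _ => b)
    rw [hsum, Finset.sum_const, Finset.card_univ, Fintype.card_fin, nsmul_eq_mul,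
      mul_one_div_cancel (by positivity)] at hlt
    exact lt_irrefl _ hlt

end Vale.Agent.Results.P339.AlphabetTwo
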